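import Vale.Agent.P269.LN.H825.C

/-!
# [B4a] Convolution with the Chern class
-/

namespace Vale.Agent.P269.LN.H825

open Vale.Agent.P269.CI

/-! ### Top coefficients -/

/-- `q` is `p` read backwards -/
def Rf (n : ℕ) (p q : Polynomial ℂ) : Prop := p.natDegree ≤ n ∧ Polynomial.reflect n p = q

theorem famR : Fam Rf where
  one := by
    refine ⟨by simp, ?_⟩
    simp
  mul := by
    intro m n p q P Q h1 h2
    refine ⟨Polynomial.natDegree_mul_le.trans (Nat.add_le_add h1.1 h2.1), ?_⟩
    rw [Polynomial.reflect_mul _ _ h1.1 h2.1, h1.2, h2.2]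

theorem Rf_lin (a b : ℂ) : Rf 1 (Polynomial.C a + Polynomial.C b * Polynomial.X)
    (Polynomial.C b + Polynomial.C a * Polynomial.X) := by
  refine ⟨?_, ?_⟩
  · rw [add_comm]
    exact Polynomial.natDegree_linear_le
  · rw [Polynomial.reflect_add, Polynomial.reflect_C]
    have h := Polynomial.reflect_C_mul_X_pow 1 1 (c := b)
    rw [pow_one] at h
    rw [h, Polynomial.revAt_le le_rfl]
    simp [add_comm]

theorem Rf_C (a : ℂ) : Rf 0 (Polynomial.C a) (Polynomial.C a) := by
  refine ⟨by simp, ?_⟩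
  rw [Polynomial.reflect_C, pow_zero, mul_one]

theorem Rf_oneX : Rf 1 (1 + Polynomial.X) (1 + Polynomial.X) := by
  have := Rf_lin 1 1
  simpa using this

/-- value and logarithmic derivative at zero -/
def Lg (p : Polynomial ℂ) (a b : ℂ) : Prop := p.coeff 0 = a ∧ p.coeff 1 = a * b

theorem Lg.mul {p q : Polynomial ℂ} {a b a' b' : ℂ} (hp : Lg p a b) (hq : Lg q a' b') :
    Lg (p * q) (a * a') (b + b') := by
  refine ⟨?_, ?_⟩
  · rw [Polynomial.mul_coeff_zero, hp.1, hq.1]
  · rw [Polynomial.mul_coeff_one, hp.1, hq.1, hp.2, hq.2]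
    ring

theorem Lg.one : Lg 1 1 0 := by
  refine ⟨by simp, ?_⟩
  simp [Polynomial.coeff_one]

theorem Lg.range (f : ℕ → Polynomial ℂ) (a b : ℕ → ℂ) (n : ℕ) (h : ∀ k < n, Lg (f k) (a k) (b k)) :
    Lg (∏ k ∈ Finset.range n, f k) (∏ k ∈ Finset.range n, a k) (∑ k ∈ Finset.range n, b k) := by
  induction n with
  | zero => simpa using Lg.one
  | succ n ih =>
    rw [Finset.prod_range_succ, Finset.prod_range_succ, Finset.sum_range_succ]
    exact (ih fun k hk => h k (by omega)).mul (h n (by omega))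

theorem Lg.list (L : List ℕ) (f : ℕ → Polynomial ℂ) (a b : ℕ → ℂ)
    (h : ∀ d ∈ L, Lg (f d) (a d) (b d)) :
    Lg (L.map f).prod (L.map a).prod (L.map b).sum := by
  induction L with
  | nil => simpa using Lg.one
  | cons x L ih =>
    rw [List.map_cons, List.map_cons, List.map_cons, List.prod_cons, List.prod_cons,
      List.sum_cons]
    exact (h x (by simp)).mul (ih fun d hd => h d (by simp [hd]))

/-! ### The factors -/

/-- `pf d * (1 + h) / (1 + d h)` -/
noncomputable def Qp (d : ℕ) : Polynomial ℂ := if d = 1 then 1 else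
  Polynomial.C (d : ℂ) * ((1 + Polynomial.X) * ∏ k ∈ Finset.range (d - 2),
    (Polynomial.C ((k : ℂ) + 2) + Polynomial.C (d : ℂ) * Polynomial.X))

/-- `Qp d` read backwards -/
noncomputable def Rp (d : ℕ) : Polynomial ℂ := if d = 1 then 1 else
  Polynomial.C (d : ℂ) * ((1 + Polynomial.X) * ∏ k ∈ Finset.range (d - 2),
    (Polynomial.C (d : ℂ) + Polynomial.C ((k : ℂ) + 2) * Polynomial.X))

theorem Rf_Q (d : ℕ) (hd : 1 ≤ d) : Rf (d - 1) (Qp d) (Rp d) := by
  unfold Qp Rp
  by_cases h : d = 1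
  · rw [if_pos h, if_pos h, h]
    exact famR.one
  · rw [if_neg h, if_neg h]
    have := famR.mul (Rf_C (d : ℂ)) (famR.mul Rf_oneX (famR.range
      (fun k => Polynomial.C ((k : ℂ) + 2) + Polynomial.C (d : ℂ) * Polynomial.X)
      (fun k => Polynomial.C (d : ℂ) + Polynomial.C ((k : ℂ) + 2) * Polynomial.X) (d - 2)
      fun k _ => Rf_lin _ _))
    rwa [show 0 + (1 + (d - 2)) = d - 1 by omega] at this

theorem sum_k2 (n : ℕ) (d : ℂ) : ∑ k ∈ Finset.range n, ((k : ℂ) + 2) / d =
    (n : ℂ) * (n + 3) / (2 * d) := by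
  rw [← Finset.sum_div]
  have : ∑ k ∈ Finset.range n, ((k : ℂ) + 2) = (n : ℂ) * (n + 3) / 2 := by
    induction n with
    | zero => simp
    | succ n ih =>
      rw [Finset.sum_range_succ, ih]
      push_cast
      ring
  rw [this, div_div]

theorem Lg_R (d : ℕ) (hd : 1 ≤ d) : Lg (Rp d) ((d : ℂ) ^ (d - 1)) (((d : ℂ) + 1) / 2 - 1 / d) := by
  unfold Rp
  by_cases h : d = 1
  · subst h
    rw [if_pos rfl]
    have := Lg.one
    norm_num
    exact this
  · rw [if_neg h]
    obtain ⟨n, rfl⟩ := Nat.exists_eq_add_of_le (show 2 ≤ d by omega)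
    have hd0 : ((2 + n : ℕ) : ℂ) ≠ 0 := by
      exact_mod_cast (by omega : 2 + n ≠ 0)
    have l1 : Lg (Polynomial.C ((2 + n : ℕ) : ℂ)) ((2 + n : ℕ) : ℂ) 0 := by
      refine ⟨by simp, ?_⟩
      simp
    have l2 : Lg (1 + Polynomial.X : Polynomial ℂ) 1 1 := by
      refine ⟨by simp, ?_⟩
      simp [Polynomial.coeff_one]
    have l3 : ∀ k < n, Lg (Polynomial.C ((2 + n : ℕ) : ℂ) + Polynomial.C ((k : ℂ) + 2) *
        Polynomial.X) ((2 + n : ℕ) : ℂ) (((k : ℂ) + 2) / ((2 + n : ℕ) : ℂ)) := by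
      intro k _
      refine ⟨by simp, ?_⟩
      rw [Polynomial.coeff_add, Polynomial.coeff_C_mul, Polynomial.coeff_X_one,
        Polynomial.coeff_C, if_neg (by norm_num), zero_add, mul_one]
      field_simp
    have l4 := l1.mul (l2.mul (Lg.range _ _ _ n l3))
    rw [Finset.prod_const, Finset.card_range, sum_k2, one_mul] at l4
    rw [show 2 + n - 2 = n by omega, show 2 + n - 1 = n + 1 by omega]
    convert l4 using 1
    · rw [pow_succ, mul_comm]
    · push_cast at hd0 ⊢
      field_simp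
      ring

theorem Q_pf (d : ℕ) (hd : 1 ≤ d) : (1 + PowerSeries.X) * pf d =
    (Qp d : PowerSeries ℂ) * (1 + (d : PowerSeries ℂ) * PowerSeries.X) := by
  unfold Qp pf
  by_cases h : d = 1
  · subst h
    simp
  · rw [if_neg h]
    obtain ⟨n, rfl⟩ := Nat.exists_eq_add_of_le (show 2 ≤ d by omega)
    rw [show 2 + n - 1 = n + 1 by omega, show 2 + n - 2 = n by omega, Finset.prod_range_succ']
    have e1 : ((∏ k ∈ Finset.range n, (Polynomial.C ((k : ℂ) + 2) +
        Polynomial.C ((2 + n : ℕ) : ℂ) * Polynomial.X) : Polynomial ℂ) : PowerSeries ℂ) =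
        ∏ k ∈ Finset.range n, (PowerSeries.C (((k + 1 : ℕ) : ℂ) + 1) +
          PowerSeries.C ((2 + n : ℕ) : ℂ) * PowerSeries.X) := by
      rw [← Polynomial.coeToPowerSeries.ringHom_apply, map_prod]
      refine Finset.prod_congr rfl fun k _ => ?_
      rw [Polynomial.coeToPowerSeries.ringHom_apply]
      push_cast
      congr 2
      ring
    rw [Polynomial.coe_mul, Polynomial.coe_mul, e1, Polynomial.coe_C, Polynomial.coe_add,
      Polynomial.coe_one, Polynomial.coe_X]
    have e2 : PowerSeries.C ((2 + n : ℕ) : ℂ) = ((2 + n : ℕ) : PowerSeries ℂ) := map_natCast _ _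
    rw [e2]
    simp only [Nat.cast_zero, zero_add, map_one]
    ring

variable (X : CompleteIntersection)

/-- the product of the factors -/
noncomputable def Bp : Polynomial ℂ := (X.degs.map Qp).prod

/-- the denominator of the Chern class -/
noncomputable def Dn (L : List ℕ) : PowerSeries ℂ :=
  (L.map fun d : ℕ => (1 + (d : PowerSeries ℂ) * PowerSeries.X)).prod

theorem Dn_const (L : List ℕ) : PowerSeries.constantCoeff (Dn L) = 1 := by
  induction L with
  | nil => simp [Dn]
  | cons a L ih =>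
    have : Dn (a :: L) = (1 + (a : PowerSeries ℂ) * PowerSeries.X) * Dn L := by
      simp [Dn]
    rw [this, map_mul, ih]
    simp

theorem list_pf (L : List ℕ) (h : ∀ d ∈ L, 1 ≤ d) :
    (1 + PowerSeries.X) ^ L.length * (L.map pf).prod =
      (((L.map Qp).prod : Polynomial ℂ) : PowerSeries ℂ) * Dn L := by
  induction L with
  | nil => simp [Dn]
  | cons a L ih =>
    have e : Dn (a :: L) = (1 + (a : PowerSeries ℂ) * PowerSeries.X) * Dn L := by
      simp [Dn]
    rw [e, List.map_cons, List.map_cons, List.prod_cons, List.prod_cons, List.length_cons,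
      Polynomial.coe_mul]
    have h1 := Q_pf a (h a (by simp))
    have h2 := ih fun d hd => h d (by simp [hd])
    calc (1 + PowerSeries.X) ^ (L.length + 1) * (pf a * (L.map pf).prod)
        = ((1 + PowerSeries.X) * pf a) * ((1 + PowerSeries.X) ^ L.length * (L.map pf).prod) := by
          ring
      _ = _ := by
          rw [h1, h2]
          ring

theorem chern_pf : chern X * (X.degs.map pf).prod =
    (1 + PowerSeries.X) ^ (X.dim + 1) * (Bp X : PowerSeries ℂ) := by
  have h1 := list_pf X.degs X.degs_pos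
  have h2 : Dn X.degs * (Dn X.degs)⁻¹ = 1 :=
    PowerSeries.mul_inv_cancel _ (by rw [Dn_const]; exact one_ne_zero)
  have e : chern X = (1 + PowerSeries.X) ^ (X.dim + X.degs.length + 1) * (Dn X.degs)⁻¹ := rfl
  rw [e, show X.dim + X.degs.length + 1 = (X.dim + 1) + X.degs.length by ring, pow_add]
  calc (1 + PowerSeries.X) ^ (X.dim + 1) * (1 + PowerSeries.X) ^ X.degs.length *
        (Dn X.degs)⁻¹ * (X.degs.map pf).prod
      = (1 + PowerSeries.X) ^ (X.dim + 1) *
        ((1 + PowerSeries.X) ^ X.degs.length * (X.degs.map pf).prod) * (Dn X.degs)⁻¹ := by ring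
    _ = (1 + PowerSeries.X) ^ (X.dim + 1) * ((Bp X : PowerSeries ℂ) *
        (Dn X.degs * (Dn X.degs)⁻¹)) := by
          rw [h1]
          unfold Bp
          ring
    _ = _ := by rw [h2, mul_one]

theorem E1 (ν : ℕ) (hν : index X = ν) (h2 : 2 ≤ ν) :
    chern X * w ^ (X.dim - 1) * Ph X.dim (ell X ν) =
      (((1 + Polynomial.X) ^ (ν + 1) * Bp X : Polynomial ℂ) : PowerSeries ℂ) := by
  have hd := X.two_le_dim
  rw [Ph_ell X ν hν h2, Polynomial.coe_mul, Polynomial.coe_pow, Polynomial.coe_add,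
    Polynomial.coe_one, Polynomial.coe_X]
  calc chern X * w ^ (X.dim - 1) * ((1 + PowerSeries.X) ^ (ν - 1) * (X.degs.map pf).prod)
      = (chern X * (X.degs.map pf).prod) * (1 + PowerSeries.X) ^ (ν - 1) * w ^ (X.dim - 1) := by
        ring
    _ = (1 + PowerSeries.X) ^ (X.dim + 1 + (ν - 1)) * w ^ (X.dim - 1) *
        (Bp X : PowerSeries ℂ) := by
        rw [chern_pf, pow_add]
        ring
    _ = _ := by
        rw [show X.dim + 1 + (ν - 1) = (ν + 1) + (X.dim - 1) by omega, pow_add]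
        calc (1 + PowerSeries.X : PowerSeries ℂ) ^ (ν + 1) * (1 + PowerSeries.X) ^ (X.dim - 1) *
              w ^ (X.dim - 1) * (Bp X : PowerSeries ℂ)
            = (1 + PowerSeries.X) ^ (ν + 1) * ((1 + PowerSeries.X) ^ (X.dim - 1) *
              w ^ (X.dim - 1)) * (Bp X : PowerSeries ℂ) := by ring
          _ = _ := by rw [hwp, mul_one]

theorem E2 (ν : ℕ) (hν : index X = ν) (h2 : 2 ≤ ν) :
    chern X * w ^ (X.dim + ν) * Ph X.dim (ell X ν) = (Bp X : PowerSeries ℂ) := by
  rw [Ph_ell X ν hν h2]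
  calc chern X * w ^ (X.dim + ν) * ((1 + PowerSeries.X) ^ (ν - 1) * (X.degs.map pf).prod)
      = (chern X * (X.degs.map pf).prod) * (1 + PowerSeries.X) ^ (ν - 1) * w ^ (X.dim + ν) := by
        ring
    _ = (1 + PowerSeries.X) ^ (X.dim + 1 + (ν - 1)) * w ^ (X.dim + ν) *
        (Bp X : PowerSeries ℂ) := by
        rw [chern_pf, pow_add]
        ring
    _ = _ := by
        rw [show X.dim + 1 + (ν - 1) = X.dim + ν by omega, hwp, one_mul]

variable {X} in
/-- **[B4a]** -/
theorem chern_one (ν : ℕ) (hν : index X = ν) (h2 : 2 ≤ ν) :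
    ∑ j ∈ Finset.range (X.dim - 1), chernCoeff X j *
        ∑ i ∈ Finset.range (X.dim - 2 - j + 1), (-1) ^ i * ((X.dim - 2 - j).choose i : ℂ) *
          ell X ν (j + i) +
      chernCoeff X (X.dim - 1) * (ell X ν (X.dim - 1) + ell X ν X.dim) +
      chernCoeff X X.dim * ell X ν X.dim -
    ∑ j ∈ Finset.range (X.dim - ν), chernCoeff X j *
        ∑ i ∈ Finset.range (X.dim - 2 - j + 1), (-1) ^ i * ((X.dim - 2 - j).choose i : ℂ) *
          ell X ν (j + ν + 1 + i) =
    (X.degs.map fun d : ℕ => (d : ℂ) ^ (d - 1)).prod * ((ν : ℂ) + 1) *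
      ((ν : ℂ) / 2 + (X.degs.map fun d : ℕ => ((d : ℂ) + 1) / 2 - 1 / d).sum) := by
  have hd := X.two_le_dim
  have he := H984.excess_eq ν hν
  have hbig : ∀ n, X.dim < n → ell X ν n = 0 := by
    intro n hn
    unfold ell
    split_ifs with h
    · exact Polynomial.coeff_eq_zero_of_natDegree_lt
        (lt_of_le_of_lt (H984.natDegree_linePoly X) (by omega))
    · rfl
  have r1 : Rf (excess X) (Bp X) (X.degs.map Rp).prod :=
    famR.list X.degs (fun d => d - 1) Qp Rp fun d hd => Rf_Q d (X.degs_pos d hd)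
  have r2 := famR.mul (famR.pow Rf_oneX (ν + 1)) r1
  have l1 : Lg (X.degs.map Rp).prod (X.degs.map fun d : ℕ => (d : ℂ) ^ (d - 1)).prod
      (X.degs.map fun d : ℕ => ((d : ℂ) + 1) / 2 - 1 / d).sum :=
    Lg.list X.degs Rp _ _ fun d hd => Lg_R d (X.degs_pos d hd)
  have f1 := first_sum (chern X) X.dim hd (ell X ν)
  have f2 := second_sum (chern X) X.dim ν h2 (ell X ν) hbig
  rw [lift_first, E1 X ν hν h2, Polynomial.coeff_coe] at f1
  have c1 : ((1 + Polynomial.X) ^ (ν + 1) * Bp X).coeff X.dim =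
      ((1 + Polynomial.X) ^ (ν + 1) * (X.degs.map Rp).prod).coeff 2 := by
    rw [← r2.2, Polynomial.coeff_reflect, Polynomial.revAt_le (by omega),
      show ν + 1 + excess X - 2 = X.dim by omega]
  have c2 : ∑ j ∈ Finset.range (X.dim - ν), PowerSeries.coeff j (chern X) *
        ∑ i ∈ Finset.range (X.dim - 2 - j + 1), (-1) ^ i * ((X.dim - 2 - j).choose i : ℂ) *
          ell X ν (j + ν + 1 + i) = ((X.degs.map Rp).prod).coeff 2 := by
    rw [f2]
    by_cases h : ν + 1 ≤ X.dim
    · rw [lift_second _ _ _ h, E2 X ν hν h2, Polynomial.coeff_coe, ← r1.2,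
        Polynomial.coeff_reflect, Polynomial.revAt_le (by omega)]
      congr 1
      omega
    · rw [show X.dim - ν = 0 by omega, Finset.sum_range_zero, ← r1.2, Polynomial.coeff_reflect]
      rw [Polynomial.revAt_eq_self_of_lt (by omega)]
      exact (Polynomial.coeff_eq_zero_of_natDegree_lt (lt_of_le_of_lt r1.1 (by omega))).symm
  have f3 : ∀ j, chernCoeff X j = PowerSeries.coeff j (chern X) := fun _ => rfl
  simp only [f3]
  rw [f1, c2, c1, Polynomial.coeff_mul, Finset.Nat.sum_antidiagonal_eq_sum_range_succ_mk,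
    Finset.sum_range_succ, Finset.sum_range_succ, Finset.sum_range_one]
  simp only [Polynomial.coeff_one_add_X_pow, l1.1, l1.2, Nat.choose_zero_right,
    Nat.choose_one_right, Nat.cast_choose_two, Nat.cast_one, Nat.cast_add, one_mul]
  ring

end Vale.Agent.P269.LN.H825
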