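import Vale.Agent.P269.LN.Defs

/-!
# Convolution with the Chern class: binomial coefficients
-/

namespace Vale.Agent.P269.LN.H825

open Finset.HasAntidiagonal (antidiagonal)
open Vale.Agent.P269.CI

/-- `(1 + h)⁻¹` -/
noncomputable def w : PowerSeries ℂ := (1 + PowerSeries.X)⁻¹

theorem hw : (1 + PowerSeries.X) * w = 1 := by
  unfold w
  exact PowerSeries.mul_inv_cancel _ (by simp)

theorem hwp (n : ℕ) : (1 + PowerSeries.X) ^ n * w ^ n = 1 := by
  rw [← mul_pow, hw, one_pow]

/-- the coefficient of `h^i` in `(1 + h)^{i-m-1}` -/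
theorem coeff_K (m i : ℕ) :
    PowerSeries.coeff i ((1 + PowerSeries.X) ^ i * w ^ (m + 1)) = (-1) ^ i * (m.choose i : ℂ) := by
  induction m generalizing i with
  | zero =>
    rcases i with _ | i
    · have : PowerSeries.coeff 0 w = 1 := by
        have := congrArg (PowerSeries.coeff 0) hw
        simpa using this
      simpa using this
    · have : (1 + PowerSeries.X : PowerSeries ℂ) ^ (i + 1) * w ^ (0 + 1) =
          ((1 + Polynomial.X : Polynomial ℂ) ^ i : Polynomial ℂ) := by
        rw [pow_succ, mul_assoc, zero_add, pow_one, hw, mul_one]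
        simp
      rw [this, Polynomial.coeff_coe]
      rw [Polynomial.coeff_eq_zero_of_natDegree_lt]
      · simp
      · calc ((1 + Polynomial.X : Polynomial ℂ) ^ i).natDegree ≤ i * 1 := by
              refine Polynomial.natDegree_pow_le_of_le i ?_
              refine (Polynomial.natDegree_add_le _ _).trans ?_
              simp
          _ < i + 1 := by omega
  | succ m ih =>
    rcases i with _ | i
    · have h0 : PowerSeries.coeff 0 w = 1 := by
        have := congrArg (PowerSeries.coeff 0) hw
        simpa using this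
      have h1 : PowerSeries.constantCoeff w = 1 := by simpa using h0
      simp [h1]
    · have h1 : (1 + PowerSeries.X : PowerSeries ℂ) ^ (i + 1) * w ^ (m + 1) =
          (1 + PowerSeries.X) * ((1 + PowerSeries.X) ^ (i + 1) * w ^ (m + 2)) := by
        have := hw
        calc (1 + PowerSeries.X : PowerSeries ℂ) ^ (i + 1) * w ^ (m + 1)
            = (1 + PowerSeries.X) ^ (i + 1) * w ^ (m + 1) * ((1 + PowerSeries.X) * w) := by
              rw [hw, mul_one]
          _ = _ := by ring
      have h2 : (1 + PowerSeries.X : PowerSeries ℂ) ^ (i + 1) * w ^ (m + 2) =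
          (1 + PowerSeries.X) ^ i * w ^ (m + 1) := by
        calc (1 + PowerSeries.X : PowerSeries ℂ) ^ (i + 1) * w ^ (m + 2)
            = (1 + PowerSeries.X) ^ i * w ^ (m + 1) * ((1 + PowerSeries.X) * w) := by ring
          _ = _ := by rw [hw, mul_one]
      have h3 := ih (i + 1)
      rw [h1, add_mul, one_mul, map_add, PowerSeries.coeff_succ_X_mul] at h3
      have h4 : PowerSeries.coeff i ((1 + PowerSeries.X : PowerSeries ℂ) ^ (i + 1) * w ^ (m + 2)) =
          (-1) ^ i * (m.choose i : ℂ) := by rw [h2]; exact ih i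
      rw [h4] at h3
      have h5 : ((m + 1).choose (i + 1) : ℂ) = (m.choose i : ℂ) + (m.choose (i + 1) : ℂ) := by
        rw [Nat.choose_succ_succ]; push_cast; ring
      show PowerSeries.coeff (i + 1) ((1 + PowerSeries.X : PowerSeries ℂ) ^ (i + 1) * w ^ (m + 2)) =
        (-1) ^ (i + 1) * ((m + 1).choose (i + 1) : ℂ)
      rw [h5]
      linear_combination h3

/-- the coefficient of `h^i` in `(1 + h)^{n - r + 1}`, `n = i + j` -/
theorem coeff_K' (r i j : ℕ) (hj : j + 2 ≤ r) :
    PowerSeries.coeff i ((1 + PowerSeries.X) ^ (j + i) * w ^ (r - 1)) =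
      (-1) ^ i * ((r - 2 - j).choose i : ℂ) := by
  rw [← coeff_K]
  congr 1
  obtain ⟨m, rfl⟩ := Nat.exists_eq_add_of_le hj
  have e1 : j + 2 + m - 1 = j + (m + 1) := by omega
  have e2 : j + 2 + m - 2 - j = m := by omega
  rw [e1, e2]
  calc (1 + PowerSeries.X : PowerSeries ℂ) ^ (j + i) * w ^ (j + (m + 1))
      = (1 + PowerSeries.X) ^ i * w ^ (m + 1) * ((1 + PowerSeries.X) ^ j * w ^ j) := by ring
    _ = _ := by rw [hwp, mul_one]

end Vale.Agent.P269.LN.H825
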