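import Vale.Agent.P269.LN.H825.A

/-!
# Convolution with the Chern class: coefficients of products
-/

namespace Vale.Agent.P269.LN.H825

open Finset.HasAntidiagonal (antidiagonal)
open Vale.Agent.P269.CI

theorem flip_sum (φ : PowerSeries ℂ) (r : ℕ) (l : ℕ → ℂ) (N : ℕ) :
    ∑ n ∈ Finset.range N, l n *
      PowerSeries.coeff n (φ * ((1 + PowerSeries.X) ^ n * w ^ (r - 1))) =
    ∑ j ∈ Finset.range N, ∑ i ∈ Finset.range (N - j), l (j + i) * (PowerSeries.coeff j φ *
      PowerSeries.coeff i ((1 + PowerSeries.X) ^ (j + i) * w ^ (r - 1))) := by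
  rw [← Finset.sum_range_diag_flip N (fun j i => l (j + i) * (PowerSeries.coeff j φ *
      PowerSeries.coeff i ((1 + PowerSeries.X) ^ (j + i) * w ^ (r - 1))))]
  refine Finset.sum_congr rfl fun n _ => ?_
  rw [PowerSeries.coeff_mul, Finset.Nat.sum_antidiagonal_eq_sum_range_succ_mk, Finset.mul_sum]
  refine Finset.sum_congr rfl fun j hj => ?_
  rw [Finset.mem_range] at hj
  rw [show j + (n - j) = n by omega]

/-- the first two lines of `chern_one` -/
theorem first_sum (φ : PowerSeries ℂ) (r : ℕ) (h2 : 2 ≤ r) (l : ℕ → ℂ) :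
    ∑ j ∈ Finset.range (r - 1), PowerSeries.coeff j φ *
        ∑ i ∈ Finset.range (r - 2 - j + 1), (-1) ^ i * ((r - 2 - j).choose i : ℂ) * l (j + i) +
      PowerSeries.coeff (r - 1) φ * (l (r - 1) + l r) + PowerSeries.coeff r φ * l r =
    ∑ n ∈ Finset.range (r + 1), l n *
      PowerSeries.coeff n (φ * ((1 + PowerSeries.X) ^ n * w ^ (r - 1))) := by
  rw [flip_sum]
  obtain ⟨R, rfl⟩ := Nat.exists_eq_add_of_le h2
  have e1 : 2 + R - 1 = R + 1 := by omega
  have e0 : 2 + R = R + 2 := by omega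
  have e2 : 2 + R + 1 = R + 1 + 1 + 1 := by omega
  rw [e2, Finset.sum_range_succ, Finset.sum_range_succ, e1]
  have hp : ∀ n, (1 + PowerSeries.X : PowerSeries ℂ) ^ n * w ^ n = 1 := hwp
  have t1 : ∑ i ∈ Finset.range (R + 1 + 1 + 1 - (R + 1)), l (R + 1 + i) *
      (PowerSeries.coeff (R + 1) φ * PowerSeries.coeff i
        ((1 + PowerSeries.X) ^ (R + 1 + i) * w ^ (R + 1))) =
      PowerSeries.coeff (R + 1) φ * (l (R + 1) + l (2 + R)) := by
    rw [show R + 1 + 1 + 1 - (R + 1) = 1 + 1 by omega, Finset.sum_range_succ, Finset.sum_range_one]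
    have a1 : (1 + PowerSeries.X : PowerSeries ℂ) ^ (R + 1 + 0) * w ^ (R + 1) = 1 := hp _
    have a2 : (1 + PowerSeries.X : PowerSeries ℂ) ^ (R + 1 + 1) * w ^ (R + 1) =
        1 + PowerSeries.X := by
      rw [pow_succ]
      calc (1 + PowerSeries.X : PowerSeries ℂ) ^ (R + 1) * (1 + PowerSeries.X) * w ^ (R + 1)
          = (1 + PowerSeries.X) * ((1 + PowerSeries.X) ^ (R + 1) * w ^ (R + 1)) := by ring
        _ = _ := by rw [hp, mul_one]
    rw [a1, a2, e0]
    simp [PowerSeries.coeff_one, PowerSeries.coeff_X]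
    ring
  have t2 : ∑ i ∈ Finset.range (R + 1 + 1 + 1 - (R + 1 + 1)), l (R + 1 + 1 + i) *
      (PowerSeries.coeff (R + 1 + 1) φ * PowerSeries.coeff i
        ((1 + PowerSeries.X) ^ (R + 1 + 1 + i) * w ^ (R + 1))) =
      PowerSeries.coeff (2 + R) φ * l (2 + R) := by
    rw [show R + 1 + 1 + 1 - (R + 1 + 1) = 1 by omega, Finset.sum_range_one]
    have a2 : (1 + PowerSeries.X : PowerSeries ℂ) ^ (R + 1 + 1 + 0) * w ^ (R + 1) =
        1 + PowerSeries.X := by
      rw [Nat.add_zero, pow_succ]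
      calc (1 + PowerSeries.X : PowerSeries ℂ) ^ (R + 1) * (1 + PowerSeries.X) * w ^ (R + 1)
          = (1 + PowerSeries.X) * ((1 + PowerSeries.X) ^ (R + 1) * w ^ (R + 1)) := by ring
        _ = _ := by rw [hp, mul_one]
    rw [a2, e0]
    simp
    ring
  rw [t1, t2]
  congr 2
  refine Finset.sum_congr rfl fun j hj => ?_
  rw [Finset.mem_range] at hj
  rw [Finset.mul_sum]
  have hs : Finset.range (2 + R - 2 - j + 1) ⊆ Finset.range (R + 1 + 1 + 1 - j) := by
    intro x hx
    rw [Finset.mem_range] at hx ⊢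
    omega
  rw [← Finset.sum_subset hs]
  · refine Finset.sum_congr rfl fun i _ => ?_
    have := coeff_K' (2 + R) i j (by omega)
    rw [e1] at this
    rw [this]
    ring
  · intro i _ hi
    rw [Finset.mem_range] at hi
    have := coeff_K' (2 + R) i j (by omega)
    rw [e1] at this
    rw [this, Nat.choose_eq_zero_of_lt (by omega)]
    simp

/-- the last line of `chern_one` -/
theorem second_sum (φ : PowerSeries ℂ) (r ν : ℕ) (h2 : 2 ≤ ν) (l : ℕ → ℂ)
    (hl : ∀ n, r < n → l n = 0) :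
    ∑ j ∈ Finset.range (r - ν), PowerSeries.coeff j φ *
        ∑ i ∈ Finset.range (r - 2 - j + 1), (-1) ^ i * ((r - 2 - j).choose i : ℂ) *
          l (j + ν + 1 + i) =
    ∑ n ∈ Finset.range (r - ν), l (n + ν + 1) *
      PowerSeries.coeff n (φ * ((1 + PowerSeries.X) ^ n * w ^ (r - 1))) := by
  rw [flip_sum φ r (fun n => l (n + ν + 1))]
  refine Finset.sum_congr rfl fun j hj => ?_
  rw [Finset.mem_range] at hj
  rw [Finset.mul_sum]
  have hs : Finset.range (r - ν - j) ⊆ Finset.range (r - 2 - j + 1) := by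
    intro x hx
    rw [Finset.mem_range] at hx ⊢
    omega
  rw [← Finset.sum_subset hs]
  · refine Finset.sum_congr rfl fun i _ => ?_
    rw [coeff_K' r i j (by omega), show j + ν + 1 + i = j + i + ν + 1 by ring]
    ring
  · intro i _ hi
    rw [Finset.mem_range] at hi
    rw [hl (j + ν + 1 + i) (by omega)]
    simp

/-- the substitution `y = (1 + h)/h` -/
noncomputable def Ph (r : ℕ) (l : ℕ → ℂ) : PowerSeries ℂ :=
  ∑ n ∈ Finset.range (r + 1), PowerSeries.C (l n) * (1 + PowerSeries.X) ^ n *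
    PowerSeries.X ^ (r - n)

theorem lift_first (φ : PowerSeries ℂ) (r : ℕ) (l : ℕ → ℂ) :
    ∑ n ∈ Finset.range (r + 1), l n *
      PowerSeries.coeff n (φ * ((1 + PowerSeries.X) ^ n * w ^ (r - 1))) =
    PowerSeries.coeff r (φ * w ^ (r - 1) * Ph r l) := by
  unfold Ph
  rw [Finset.mul_sum, map_sum]
  refine Finset.sum_congr rfl fun n hn => ?_
  rw [Finset.mem_range] at hn
  have e : φ * w ^ (r - 1) * (PowerSeries.C (l n) * (1 + PowerSeries.X) ^ n *
      PowerSeries.X ^ (r - n)) = PowerSeries.C (l n) *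
        (φ * ((1 + PowerSeries.X) ^ n * w ^ (r - 1)) * PowerSeries.X ^ (r - n)) := by ring
  rw [e, PowerSeries.coeff_C_mul, PowerSeries.coeff_mul_X_pow', if_pos (by omega),
    show r - (r - n) = n by omega]

theorem lift_second (φ : PowerSeries ℂ) (r ν : ℕ) (hr : ν + 1 ≤ r) (l : ℕ → ℂ) :
    ∑ n ∈ Finset.range (r - ν), l (n + ν + 1) *
      PowerSeries.coeff n (φ * ((1 + PowerSeries.X) ^ n * w ^ (r - 1))) =
    PowerSeries.coeff (r - ν - 1) (φ * w ^ (r + ν) * Ph r l) := by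
  unfold Ph
  rw [Finset.mul_sum, map_sum]
  rw [show r + 1 = (ν + 1) + (r - ν) by omega, Finset.sum_range_add]
  have z : ∑ x ∈ Finset.range (ν + 1), PowerSeries.coeff (r - ν - 1)
      (φ * w ^ (r + ν) * (PowerSeries.C (l x) * (1 + PowerSeries.X) ^ x *
        PowerSeries.X ^ (r - x))) = 0 := by
    refine Finset.sum_eq_zero fun n hn => ?_
    rw [Finset.mem_range] at hn
    rw [← mul_assoc, PowerSeries.coeff_mul_X_pow', if_neg (by omega)]
  rw [z, zero_add]
  refine Finset.sum_congr rfl fun n hn => ?_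
  rw [Finset.mem_range] at hn
  have e : φ * w ^ (r + ν) * (PowerSeries.C (l (ν + 1 + n)) * (1 + PowerSeries.X) ^ (ν + 1 + n) *
      PowerSeries.X ^ (r - (ν + 1 + n))) = PowerSeries.C (l (ν + 1 + n)) *
        (φ * ((1 + PowerSeries.X) ^ n * w ^ (r - 1)) * PowerSeries.X ^ (r - (ν + 1 + n))) := by
    obtain ⟨m, hm⟩ := Nat.exists_eq_add_of_le (show 1 ≤ r by omega)
    have e3 : r + ν = (r - 1) + (ν + 1) := by omega
    rw [e3, pow_add, pow_add (1 + PowerSeries.X : PowerSeries ℂ) (ν + 1) n]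
    calc φ * (w ^ (r - 1) * w ^ (ν + 1)) * (PowerSeries.C (l (ν + 1 + n)) *
          ((1 + PowerSeries.X) ^ (ν + 1) * (1 + PowerSeries.X) ^ n) *
            PowerSeries.X ^ (r - (ν + 1 + n)))
        = PowerSeries.C (l (ν + 1 + n)) * (φ * ((1 + PowerSeries.X) ^ n * w ^ (r - 1)) *
          PowerSeries.X ^ (r - (ν + 1 + n))) *
            ((1 + PowerSeries.X) ^ (ν + 1) * w ^ (ν + 1)) := by ring
      _ = _ := by rw [hwp, mul_one]
  rw [e, PowerSeries.coeff_C_mul, PowerSeries.coeff_mul_X_pow', if_pos (by omega),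
    show r - ν - 1 - (r - (ν + 1 + n)) = n by omega, show n + ν + 1 = ν + 1 + n by ring]

end Vale.Agent.P269.LN.H825
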