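import Vale.Agent.P269.LN.H825.B
import Vale.Agent.P269.LN.H984.Ell

/-!
# Convolution with the Chern class: the substitution in products
-/

namespace Vale.Agent.P269.LN.H825

open Vale.Agent.P269.CI

/-- multiplicative families -/
structure Fam {S : Type} [CommMonoid S] (T : ℕ → Polynomial ℂ → S → Prop) : Prop where
  one : T 0 1 1
  mul : ∀ {m n p q P Q}, T m p P → T n q Q → T (m + n) (p * q) (P * Q)

theorem Fam.range {S : Type} [CommMonoid S] {T : ℕ → Polynomial ℂ → S → Prop} (H : Fam T)
    (f : ℕ → Polynomial ℂ) (g : ℕ → S) (n : ℕ) (h : ∀ k < n, T 1 (f k) (g k)) :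
    T n (∏ k ∈ Finset.range n, f k) (∏ k ∈ Finset.range n, g k) := by
  induction n with
  | zero => simpa using H.one
  | succ n ih =>
    rw [Finset.prod_range_succ, Finset.prod_range_succ]
    exact H.mul (ih fun k hk => h k (by omega)) (h n (by omega))

theorem Fam.list {S : Type} [CommMonoid S] {T : ℕ → Polynomial ℂ → S → Prop} (H : Fam T)
    (L : List ℕ) (e : ℕ → ℕ) (f : ℕ → Polynomial ℂ) (g : ℕ → S)
    (h : ∀ d ∈ L, T (e d) (f d) (g d)) : T (L.map e).sum (L.map f).prod (L.map g).prod := by
  induction L with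
  | nil => simpa using H.one
  | cons a L ih =>
    rw [List.map_cons, List.map_cons, List.map_cons, List.prod_cons, List.prod_cons,
      List.sum_cons]
    exact H.mul (h a (by simp)) (ih fun d hd => h d (by simp [hd]))

theorem Fam.pow {S : Type} [CommMonoid S] {T : ℕ → Polynomial ℂ → S → Prop} (H : Fam T)
    {f : Polynomial ℂ} {g : S} (h : T 1 f g) (n : ℕ) : T n (f ^ n) (g ^ n) := by
  have := H.range (fun _ => f) (fun _ => g) n fun k _ => h
  simpa using this

/-! ### The substitution `y = (1 + h)/h` -/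

/-- `P = h^n p((1 + h)/h)` -/
def Hp (n : ℕ) (p : Polynomial ℂ) (P : PowerSeries ℂ) : Prop :=
  p.natDegree ≤ n ∧ ∑ t ∈ Finset.range (n + 1), PowerSeries.C (p.coeff t) *
    (1 + PowerSeries.X) ^ t * PowerSeries.X ^ (n - t) = P

/-- the field in which the substitution is made -/
abbrev Kf := FractionRing (PowerSeries ℂ)

/-- the embedding -/
noncomputable def em : PowerSeries ℂ →+* Kf := algebraMap _ _

theorem em_inj : Function.Injective em := IsFractionRing.injective (PowerSeries ℂ) Kf

theorem emX : em PowerSeries.X ≠ 0 := by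
  intro h
  have h1 : em PowerSeries.X = em 0 := by rw [h, map_zero]
  exact PowerSeries.X_ne_zero (em_inj h1)

/-- the value of `y` -/
noncomputable def yy : Kf := em (1 + PowerSeries.X) / em PowerSeries.X

theorem Hp_iff (n : ℕ) (p : Polynomial ℂ) (P : PowerSeries ℂ) (hp : p.natDegree ≤ n) :
    Hp n p P ↔ em P = em PowerSeries.X ^ n * p.eval₂ (em.comp (PowerSeries.C)) yy := by
  have key : em (∑ t ∈ Finset.range (n + 1), PowerSeries.C (p.coeff t) *
      (1 + PowerSeries.X) ^ t * PowerSeries.X ^ (n - t)) =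
      em PowerSeries.X ^ n * p.eval₂ (em.comp (PowerSeries.C)) yy := by
    rw [Polynomial.eval₂_eq_sum_range' _ (Nat.lt_succ_of_le hp), Finset.mul_sum, map_sum]
    refine Finset.sum_congr rfl fun t ht => ?_
    rw [Finset.mem_range] at ht
    rw [map_mul, map_mul, map_pow, map_pow, RingHom.comp_apply, yy, div_pow]
    have hX := emX
    have e : em PowerSeries.X ^ n = em PowerSeries.X ^ (n - t) * em PowerSeries.X ^ t := by
      rw [← pow_add]
      congr 1
      omega
    rw [e]
    field_simp
  constructor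
  · rintro ⟨_, h⟩
    rw [← h]
    exact key
  · intro h
    refine ⟨hp, em_inj ?_⟩
    rw [key, h]

theorem famH : Fam Hp where
  one := by
    refine ⟨by simp, ?_⟩
    simp
  mul := by
    intro m n p q P Q h1 h2
    have hd : (p * q).natDegree ≤ m + n :=
      Polynomial.natDegree_mul_le.trans (Nat.add_le_add h1.1 h2.1)
    rw [Hp_iff _ _ _ hd, map_mul, (Hp_iff _ _ _ h1.1).1 h1, (Hp_iff _ _ _ h2.1).1 h2,
      Polynomial.eval₂_mul, pow_add]
    ring

theorem Hp_lin (a b : ℂ) : Hp 1 (Polynomial.C a + Polynomial.C b * Polynomial.X)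
    (PowerSeries.C a * PowerSeries.X + PowerSeries.C b * (1 + PowerSeries.X)) := by
  refine ⟨?_, ?_⟩
  · rw [add_comm]
    exact Polynomial.natDegree_linear_le
  · rw [Finset.sum_range_succ, Finset.sum_range_one]
    simp

theorem Hp_C (a : ℂ) : Hp 0 (Polynomial.C a) (PowerSeries.C a) := by
  refine ⟨by simp, ?_⟩
  simp

theorem Hp_X : Hp 1 Polynomial.X (1 + PowerSeries.X) := by
  have := Hp_lin 0 1
  simpa using this

variable (X : CompleteIntersection)

/-- one factor of the substituted polynomial -/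
noncomputable def pf (d : ℕ) : PowerSeries ℂ := PowerSeries.C (d : ℂ) *
  ∏ k ∈ Finset.range (d - 1), (PowerSeries.C ((k : ℂ) + 1) + PowerSeries.C (d : ℂ) * PowerSeries.X)

theorem Hp_linePoly : Hp (excess X) (linePoly X) (X.degs.map pf).prod := by
  refine famH.list X.degs (fun d => d - 1) _ pf fun d _ => ?_
  have h1 := famH.mul (Hp_C (d : ℂ)) (famH.range (fun k => Polynomial.C ((d : ℂ) - (k + 1)) +
    Polynomial.C ((k : ℂ) + 1) * Polynomial.X) (fun k => PowerSeries.C ((k : ℂ) + 1) +
      PowerSeries.C (d : ℂ) * PowerSeries.X) (d - 1) fun k _ => by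
        have := Hp_lin ((d : ℂ) - (k + 1)) ((k : ℂ) + 1)
        convert this using 1
        rw [map_sub]
        ring)
  rw [zero_add] at h1
  exact h1

theorem Ph_ell (ν : ℕ) (hν : index X = ν) (h2 : 2 ≤ ν) :
    Ph X.dim (ell X ν) = (1 + PowerSeries.X) ^ (ν - 1) * (X.degs.map pf).prod := by
  have he := H984.excess_eq ν hν
  have h1 := famH.mul (famH.pow Hp_X (ν - 1)) (Hp_linePoly X)
  rw [show ν - 1 + excess X = X.dim by omega] at h1
  rw [← h1.2]
  unfold Ph
  refine Finset.sum_congr rfl fun n hn => ?_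
  congr 3
  rw [Polynomial.coeff_X_pow_mul']
  unfold ell
  by_cases h : ν ≤ n + 1
  · rw [if_pos h, if_pos (by omega), show n + 1 - ν = n - (ν - 1) by omega]
  · rw [if_neg h, if_neg (by omega)]

end Vale.Agent.P269.LN.H825
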